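import Mathlib

/-!
# P255 module E: classes of paths that are images of segments

A sheet is a map that is continuous on a convex set. In a sheet the class of the image of a path
only depends on its end points.
-/

open Set
open scoped unitInterval

noncomputable section

namespace Vale.Agent.P255

abbrev PathClass {M : Type} [TopologicalSpace M] (x y : M) := Path.Homotopic.Quotient x y

/-- a map continuous on a convex set -/
structure Sheet (V : Type) [NormedAddCommGroup V] [NormedSpace ℝ V]
    (M : Type) [TopologicalSpace M] where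
  f : V → M
  K : Set V
  conv : Convex ℝ K
  cont : ContinuousOn f K

namespace Sheet

variable {V W M : Type} [NormedAddCommGroup V] [NormedSpace ℝ V] [NormedAddCommGroup W]
  [NormedSpace ℝ W] [TopologicalSpace M] (S : Sheet V M) {a b c : V} {x y z : M}

lemma lineMap_mem (ha : a ∈ S.K) (hb : b ∈ S.K) (t : I) :
    AffineMap.lineMap a b (t : ℝ) ∈ S.K :=
  S.conv.lineMap_mem ha hb t.2

/-- the image of a segment -/
def segPath (ha : a ∈ S.K) (hb : b ∈ S.K) (hx : S.f a = x) (hy : S.f b = y) : Path x y where
  toFun t := S.f (AffineMap.lineMap a b (t : ℝ))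
  continuous_toFun := S.cont.comp_continuous
    (AffineMap.lineMap_continuous.comp continuous_subtype_val) (S.lineMap_mem ha hb)
  source' := by simp [hx]
  target' := by simp [hy]

/-- its class -/
def seg (ha : a ∈ S.K) (hb : b ∈ S.K) (hx : S.f a = x) (hy : S.f b = y) : PathClass x y :=
  Path.Homotopic.Quotient.mk (S.segPath ha hb hx hy)

/-- A path in a sheet is homotopic to the segment. -/
lemma mk_eq_seg (P : Path x y) (γ : I → V) (hγ : Continuous γ) (hK : ∀ t, γ t ∈ S.K)
    (h0 : γ 0 = a) (h1 : γ 1 = b) (ha : a ∈ S.K) (hb : b ∈ S.K) (hx : S.f a = x) (hy : S.f b = y)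
    (hP : ∀ t, P t = S.f (γ t)) :
    Path.Homotopic.Quotient.mk P = S.seg ha hb hx hy := by
  refine Path.Homotopic.Quotient.eq.2 ⟨{
    toFun := fun p => S.f (AffineMap.lineMap (γ p.2) (AffineMap.lineMap a b (p.2 : ℝ)) (p.1 : ℝ))
    continuous_toFun := S.cont.comp_continuous (by
      simp only [AffineMap.lineMap_apply_module]
      fun_prop) fun p => S.conv.lineMap_mem (hK _) (S.lineMap_mem ha hb _) p.1.2
    map_zero_left := fun t => by simp [hP]
    map_one_left := fun t => by simp [segPath]
    prop' := fun t s hs => by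
      rcases hs with rfl | rfl <;> simp [hP, h0, h1] }⟩

lemma seg_trans (ha : a ∈ S.K) (hb : b ∈ S.K) (hc : c ∈ S.K) (hx : S.f a = x) (hy : S.f b = y)
    (hz : S.f c = z) : (S.seg ha hb hx hy).trans (S.seg hb hc hy hz) = S.seg ha hc hx hz := by
  let γ : Path a c := (Path.segment a b).trans (Path.segment b c)
  rw [seg, seg, ← Path.Homotopic.Quotient.mk_trans]
  refine S.mk_eq_seg _ γ γ.continuous (fun t => ?_) γ.source γ.target ha hc hx hz fun t => ?_
  · simp only [γ, Path.trans_apply]
    split_ifs <;> simp only [Path.segment_apply] <;>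
      exact S.conv.lineMap_mem ‹_› ‹_› (by
        have := t.2.1; have := t.2.2; constructor <;> linarith)
  · simp only [γ, Path.trans_apply, segPath]
    split_ifs <;> simp [Path.segment_apply]

lemma seg_self (ha : a ∈ S.K) (hx : S.f a = x) :
    S.seg ha ha hx hx = Path.Homotopic.Quotient.refl x := by
  rw [← Path.Homotopic.Quotient.mk_refl]
  exact (S.mk_eq_seg _ (fun _ => a) continuous_const (fun _ => ha) rfl rfl ha ha hx hx
    fun t => by simp [hx]).symm

lemma seg_symm (ha : a ∈ S.K) (hb : b ∈ S.K) (hx : S.f a = x) (hy : S.f b = y) :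
    (S.seg ha hb hx hy).symm = S.seg hb ha hy hx := by
  rw [seg, ← Path.Homotopic.Quotient.mk_symm]
  refine S.mk_eq_seg _ (fun t => AffineMap.lineMap a b ((σ t : I) : ℝ)) ?_
    (fun t => S.lineMap_mem ha hb _) (by simp) (by simp) hb ha hy hx fun t => rfl
  exact AffineMap.lineMap_continuous.comp (continuous_subtype_val.comp unitInterval.continuous_symm)

/-- Two sheets that agree along paths with the given end points give the same class. -/
lemma seg_eq_seg (T : Sheet W M) {a' b' : W} (ha : a ∈ S.K) (hb : b ∈ S.K) (hx : S.f a = x)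
    (hy : S.f b = y) (ha' : a' ∈ T.K) (hb' : b' ∈ T.K) (hx' : T.f a' = x) (hy' : T.f b' = y)
    (γ : I → W) (hγ : Continuous γ) (hK : ∀ t, γ t ∈ T.K) (h0 : γ 0 = a') (h1 : γ 1 = b')
    (h : ∀ t : I, S.f (AffineMap.lineMap a b (t : ℝ)) = T.f (γ t)) :
    S.seg ha hb hx hy = T.seg ha' hb' hx' hy' :=
  T.mk_eq_seg _ γ hγ hK h0 h1 ha' hb' hx' hy' h

/-- a period of a sheet -/
def Period (τ : V) : Prop := ∀ p ∈ S.K, p + τ ∈ S.K ∧ S.f (p + τ) = S.f p

/-- Translating a segment by a period. -/
lemma seg_translate {τ : V} (h : S.Period τ) (ha : a ∈ S.K) (hb : b ∈ S.K) (hx : S.f a = x)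
    (hy : S.f b = y) :
    S.seg (h a ha).1 (h b hb).1 ((h a ha).2.trans hx) ((h b hb).2.trans hy)
      = S.seg ha hb hx hy := by
  refine S.seg_eq_seg S _ _ _ _ ha hb hx hy (fun t => AffineMap.lineMap a b (t : ℝ))
    (AffineMap.lineMap_continuous.comp continuous_subtype_val) (S.lineMap_mem ha hb) (by simp)
    (by simp) fun t => ?_
  rw [← (h _ (S.lineMap_mem ha hb t)).2]
  congr 1
  simp only [AffineMap.lineMap_apply_module', add_sub_add_right_eq_sub]
  abel

/-- The loop of a period, seen from another base point. -/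
lemma seg_period {τ : V} (h : S.Period τ) (ha : a ∈ S.K) (hb : b ∈ S.K) (hx : S.f a = x)
    (hy : S.f b = y) :
    S.seg ha (h a ha).1 hx ((h a ha).2.trans hx)
      = ((S.seg ha hb hx hy).trans (S.seg hb (h b hb).1 hy ((h b hb).2.trans hy))).trans
          (S.seg ha hb hx hy).symm := by
  conv_rhs => arg 2; rw [S.seg_symm, ← S.seg_translate h]
  rw [S.seg_trans, S.seg_trans]

/-- Composition of the loops of two periods. -/
lemma seg_period_trans {τ τ' : V} (h : S.Period τ) (h' : S.Period τ') (ha : a ∈ S.K)
    (hx : S.f a = x) :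
    (S.seg ha (h' a ha).1 hx ((h' a ha).2.trans hx)).trans
      (S.seg ha (h a ha).1 hx ((h a ha).2.trans hx))
      = S.seg ha (h' _ (h a ha).1).1 hx
          ((h' _ (h a ha).1).2.trans ((h a ha).2.trans hx)) := by
  conv_lhs => arg 2; rw [← S.seg_translate h']
  rw [S.seg_trans]

end Sheet

/-- transport of loops along a path class -/
def conjHom {M : Type} [TopologicalSpace M] {x₀ x₁ : M} (c : PathClass x₀ x₁) :
    FundamentalGroup M x₁ →* FundamentalGroup M x₀ where
  toFun p := (c.trans p).trans c.symm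
  map_one' := by
    rw [FundamentalGroup.one_def, Path.Homotopic.Quotient.trans_refl,
      Path.Homotopic.Quotient.trans_symm]
    rfl
  map_mul' p q := by
    rw [FundamentalGroup.mul_def, FundamentalGroup.mul_def]
    simp only [Path.Homotopic.Quotient.trans_assoc]
    rw [← Path.Homotopic.Quotient.trans_assoc c.symm c, Path.Homotopic.Quotient.symm_trans,
      Path.Homotopic.Quotient.refl_trans]

/-- A segment with translated copy gives a loop commuting with the translating one. -/
lemma Sheet.loops_commute {V M : Type} [NormedAddCommGroup V] [NormedSpace ℝ V]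
    [TopologicalSpace M] (S : Sheet V M) {a b c d : V} {x : M} (ha : a ∈ S.K) (hb : b ∈ S.K)
    (hc : c ∈ S.K) (hd : d ∈ S.K) (ea : S.f a = x) (eb : S.f b = x) (ec : S.f c = x)
    (ed : S.f d = x) (h1 : S.seg hc hd ec ed = S.seg ha hb ea eb)
    (h2 : S.seg hb hd eb ed = S.seg ha hc ea ec) :
    Commute (S := FundamentalGroup M x) (S.seg ha hb ea eb)
      (S.seg ha hc ea ec) := by
  change (S.seg ha hc ea ec).trans (S.seg ha hb ea eb)
    = (S.seg ha hb ea eb).trans (S.seg ha hc ea ec)
  conv_lhs => rw [← h1]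
  conv_rhs => rw [← h2]
  rw [S.seg_trans, S.seg_trans]

end Vale.Agent.P255
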