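import Vale.Agent.P255.Topo.NilMap
import Vale.Agent.P255.Topo.Paths

/-!
# P255 module E: the relations in the fundamental group of the example

`f₁` is the loop `(r, v, u) = (0, s, s)`, `f₂` is the loop `(0, s, 0)` (the boundary circle of the
left base and the fibre on the right); `a₁,b₁` and `a₂,b₂` are the torus loops of the two cores.
`f₂ ≠ 1`: map the left piece into the Heisenberg nilmanifold and the right piece onto its centre
circle by the fibre coordinate.
-/

open scoped Manifold ContDiff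
open Set Topology
open scoped unitInterval

noncomputable section

namespace Vale.Agent.P255

lemma domCore_add {lam rho : ℝ} {y : E3} (hy : y ∈ domCore lam rho) (i j k : ℤ) :
    y + perCore lam i j k ∈ domCore lam rho := by
  intro a b
  obtain ⟨e0, e1, -⟩ := add_perCore lam y i j k
  rw [e0, e1]
  have := hy (a - i) (b - j)
  push_cast at this
  convert this using 3 <;> ring

lemma vec_eq {y : E3} {a b c : ℝ} (h0 : y 0 = a) (h1 : y 1 = b) (h2 : y 2 = c) :
    y = vec a b c := by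
  ext i
  fin_cases i <;> simp [vec, h0, h1, h2]

lemma vec_add (a b c a' b' c' : ℝ) : vec a b c + vec a' b' c' = vec (a + a') (b + b') (c + c') :=
  vec_eq (by simp [vec]) (by simp [vec]) (by simp [vec])

/-- What is used of one of the two cores. -/
structure Core (M : Type) [TopologicalSpace M] where
  e : E3 → M
  lam : ℝ
  rho : ℝ
  rho_pos : 0 < rho
  lam_eq : lam = 4 * (rho + 2)
  cont : ContinuousOn e (domCore lam rho)
  per : ∀ y ∈ domCore lam rho, ∀ i j k : ℤ, e (y + perCore lam i j k) = e y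

namespace Core

variable {M : Type} [TopologicalSpace M] (K : Core M)

lemma strip_mem_dom {y : E3} (h : (K.rho < y 1 ∧ y 1 < K.lam - K.rho) ∨
    (K.rho < y 0 ∧ y 0 < K.lam - K.rho) ∨ (K.rho < -y 1 ∧ -y 1 < K.lam - K.rho) ∨
    (K.rho < -y 0 ∧ -y 0 < K.lam - K.rho)) : y ∈ domCore K.lam K.rho := by
  have hr := K.rho_pos
  have hl : 0 < K.lam := by rw [K.lam_eq]; linarith
  have key : ∀ w : ℝ, K.rho < w → w < K.lam - K.rho → ∀ j : ℤ, K.rho ^ 2 < (w - K.lam * j) ^ 2 := by
    intro w h1 h2 j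
    rcases le_or_gt j 0 with hj | hj
    · have : (j : ℝ) ≤ 0 := by exact_mod_cast hj
      have h3 : K.rho < w - K.lam * j := by nlinarith
      exact pow_lt_pow_left₀ h3 hr.le two_ne_zero
    · have : (1 : ℝ) ≤ j := by exact_mod_cast hj
      have h3 : K.rho < K.lam * j - w := by nlinarith
      nlinarith
  intro i j
  rcases h with ⟨h1, h2⟩ | ⟨h1, h2⟩ | ⟨h1, h2⟩ | ⟨h1, h2⟩
  · nlinarith [key _ h1 h2 j, sq_nonneg (y 0 - K.lam * i)]
  · nlinarith [key _ h1 h2 i, sq_nonneg (y 1 - K.lam * j)]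
  · have := key _ h1 h2 (-j); push_cast at this
    nlinarith [sq_nonneg (y 0 - K.lam * i)]
  · have := key _ h1 h2 (-i); push_cast at this
    nlinarith [sq_nonneg (y 1 - K.lam * j)]

/-- the strip on the side of the square given by a coordinate and a sign -/
def strip (a : Fin 3) (ha : a = 0 ∨ a = 1) (s : ℝ) (hs : s = 1 ∨ s = -1) : Sheet E3 M where
  f := K.e
  K := {y | s * y a ∈ Ioo K.rho (K.lam - K.rho)}
  conv := (convex_Ioo _ _).linear_preimage (s • (EuclideanSpace.proj (𝕜 := ℝ) a).toLinearMap)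
  cont := K.cont.mono fun y hy => K.strip_mem_dom (by
    rcases ha with rfl | rfl <;> rcases hs with rfl | rfl <;>
      simp only [Set.mem_ofPred_eq, Set.mem_Ioo, one_mul, neg_one_mul] at hy <;> tauto)

lemma polar_dom {R θ z : ℝ} (h : R ∈ Ioo K.rho (K.lam - K.rho)) :
    vec (R * Real.cos θ) (R * Real.sin θ) z ∈ domCore K.lam K.rho := by
  obtain ⟨h1, h2⟩ := h
  intro i j
  rw [(vec_apply3 _ _ _).1, (vec_apply3 _ _ _).2.1]
  have hr := K.rho_pos
  by_cases h0 : i = 0 ∧ j = 0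
  · rw [h0.1, h0.2]
    simp only [Int.cast_zero, mul_zero, sub_zero]
    rw [show (R * Real.cos θ) ^ 2 + (R * Real.sin θ) ^ 2 = R ^ 2 by
      linear_combination R ^ 2 * Real.sin_sq_add_cos_sq θ]
    exact pow_lt_pow_left₀ h1 hr.le two_ne_zero
  · set q := Real.sqrt ((i : ℝ) ^ 2 + (j : ℝ) ^ 2) with hq
    have hq2 : q ^ 2 = (i : ℝ) ^ 2 + (j : ℝ) ^ 2 := Real.sq_sqrt (by positivity)
    have hq1 : 1 ≤ q := by
      rw [hq, Real.one_le_sqrt]
      have : 1 ≤ i ^ 2 + j ^ 2 := by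
        by_contra hc
        exact h0 ⟨by nlinarith [sq_nonneg i, sq_nonneg j],
          by nlinarith [sq_nonneg i, sq_nonneg j]⟩
      exact_mod_cast this
    have hcs : (i : ℝ) * Real.cos θ + j * Real.sin θ ≤ q := by
      refine (abs_le_of_sq_le_sq' ?_ (by linarith)).2
      nlinarith [Real.sin_sq_add_cos_sq θ,
        sq_nonneg ((i : ℝ) * Real.sin θ - j * Real.cos θ)]
    have hl : 0 ≤ K.lam := by linarith [K.lam_eq]
    have h3 : K.rho < K.lam * q - R := by nlinarith
    calc K.rho ^ 2 < (K.lam * q - R) ^ 2 := pow_lt_pow_left₀ h3 hr.le two_ne_zero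
      _ ≤ R ^ 2 + K.lam ^ 2 * q ^ 2
          - 2 * R * K.lam * ((i : ℝ) * Real.cos θ + j * Real.sin θ) := by
        nlinarith [mul_le_mul_of_nonneg_left hcs
          (mul_nonneg (by linarith : (0 : ℝ) ≤ 2 * R) hl)]
      _ = _ := by
        rw [hq2]
        linear_combination -(R ^ 2) * Real.sin_sq_add_cos_sq θ

/-- polar coordinates about the removed disc -/
def polar : Sheet (ℝ × ℝ × ℝ) M where
  f q := K.e (vec (q.1 * Real.cos q.2.1) (q.1 * Real.sin q.2.1) q.2.2)
  K := Ioo K.rho (K.lam - K.rho) ×ˢ univ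
  conv := (convex_Ioo _ _).prod convex_univ
  cont := by
    refine K.cont.comp ?_ fun q hq => K.polar_dom hq.1
    unfold vec
    refine Continuous.continuousOn ((PiLp.continuous_toLp 2 _).comp (continuous_pi fun i => ?_))
    fin_cases i <;> simp <;> fun_prop

lemma polar_period (a k : ℤ) : K.polar.Period (0, 2 * Real.pi * a, (k : ℝ)) := by
  rintro ⟨R, θ, z⟩ ⟨hR, -⟩
  refine ⟨⟨by simpa using hR, trivial⟩, ?_⟩
  simp only [polar, Prod.mk_add_mk, add_zero]
  rw [show θ + 2 * Real.pi * (a : ℝ) = θ + (a : ℝ) * (2 * Real.pi) by ring,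
    Real.cos_add_int_mul_two_pi, Real.sin_add_int_mul_two_pi]
  have hm : vec (R * Real.cos θ) (R * Real.sin θ) z + perCore K.lam 0 0 k
      = vec (R * Real.cos θ) (R * Real.sin θ) (z + k) := by
    simp [perCore, vec_add]
  have hd : vec (R * Real.cos θ) (R * Real.sin θ) z ∈ domCore K.lam K.rho := K.polar_dom hR
  rw [← hm, K.per _ hd]

/-- the radius through the corners of the square -/
def r0 : ℝ := K.lam / 2 * Real.sqrt 2

lemma r0_mul : K.r0 * (Real.sqrt 2 / 2) = K.lam / 2 := by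
  rw [r0]
  linear_combination (K.lam / 4) * Real.mul_self_sqrt (show (0 : ℝ) ≤ 2 by norm_num)

lemma r0_mem : K.r0 ∈ Ioo K.rho (K.lam - K.rho) := by
  have hr := K.rho_pos
  have h2 : (1 : ℝ) ≤ Real.sqrt 2 ∧ Real.sqrt 2 ≤ 3 / 2 :=
    ⟨Real.one_le_sqrt.2 (by norm_num), Real.sqrt_le_iff.2 ⟨by norm_num, by norm_num⟩⟩
  rw [r0, K.lam_eq]
  constructor <;> nlinarith

lemma r0_sin_mem {u : ℝ} (h1 : Real.pi / 4 ≤ u) (h2 : u ≤ 3 * Real.pi / 4) :
    K.r0 * Real.sin u ∈ Ioo K.rho (K.lam - K.rho) := by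
  have hr := K.rho_pos
  obtain ⟨a1, a2⟩ := K.r0_mem
  have hpi := Real.pi_pos
  have hs : Real.sqrt 2 / 2 ≤ Real.sin u := by
    rcases le_total u (Real.pi / 2) with h | h
    · rw [← Real.sin_pi_div_four]
      exact Real.sin_le_sin_of_le_of_le_pi_div_two (by linarith) h h1
    · rw [← Real.sin_pi_div_four, ← Real.sin_pi_sub u]
      exact Real.sin_le_sin_of_le_of_le_pi_div_two (by linarith) (by linarith) (by linarith)
  have h3 : K.lam / 2 ≤ K.r0 * Real.sin u := by
    rw [← K.r0_mul]; exact mul_le_mul_of_nonneg_left hs (by linarith)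
  have h4 : K.r0 * Real.sin u ≤ K.r0 :=
    mul_le_of_le_one_right (by linarith) (Real.sin_le_one u)
  exact ⟨by linarith [K.lam_eq], by linarith⟩

lemma half_mem : K.lam / 2 ∈ Ioo K.rho (K.lam - K.rho) := by
  have := K.rho_pos
  constructor <;> linarith [K.lam_eq]

/-- the base corner -/
def corner : E3 := vec (K.lam / 2) (K.lam / 2) 0

/-- the base point of the core -/
def base : M := K.e K.corner

lemma e_per {y : E3} (hy : y ∈ domCore K.lam K.rho) {y' : E3} (i j k : ℤ)
    (h : y' = y + perCore K.lam i j k) : K.e y' = K.e y := h ▸ K.per y hy i j k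

lemma e_per' {y y' : E3} (hy : y ∈ domCore K.lam K.rho) (i j k : ℤ)
    (h0 : y' 0 = y 0 + K.lam * i) (h1 : y' 1 = y 1 + K.lam * j) (h2 : y' 2 = y 2 + k) :
    K.e y' = K.e y := by
  refine K.e_per hy i j k ?_
  ext l
  obtain ⟨e0, e1, e2⟩ := add_perCore K.lam y i j k
  fin_cases l <;> simp [e0, e1, e2, h0, h1, h2]

lemma corner_dom : K.corner ∈ domCore K.lam K.rho :=
  K.strip_mem_dom (Or.inl (by simpa [corner, vec] using K.half_mem))

lemma e_corner (a b : ℝ) (k : ℤ) (ha : a = K.lam / 2 ∨ a = -(K.lam / 2))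
    (hb : b = K.lam / 2 ∨ b = -(K.lam / 2)) : K.e (vec a b k) = K.base := by
  rcases ha with rfl | rfl <;> rcases hb with rfl | rfl
  · exact K.e_per' K.corner_dom 0 0 k (by simp [corner, vec]) (by simp [corner, vec])
      (by simp [corner, vec])
  · exact K.e_per' K.corner_dom 0 (-1) k (by simp [corner, vec]) (by simp [corner, vec]; ring)
      (by simp [corner, vec])
  · exact K.e_per' K.corner_dom (-1) 0 k (by simp [corner, vec]; ring) (by simp [corner, vec])
      (by simp [corner, vec])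
  · exact K.e_per' K.corner_dom (-1) (-1) k (by simp [corner, vec]; ring)
      (by simp [corner, vec]; ring) (by simp [corner, vec])

lemma polar_f (q : ℝ × ℝ × ℝ) :
    K.polar.f q = K.e (vec (q.1 * Real.cos q.2.1) (q.1 * Real.sin q.2.1) q.2.2) := rfl

/-- the angle of the base corner and its polar point -/
def q0 : ℝ × ℝ × ℝ := (K.r0, Real.pi / 4, 0)

lemma q0_mem : K.q0 ∈ K.polar.K := ⟨K.r0_mem, trivial⟩

lemma polar_q0 : K.polar.f K.q0 = K.base := by
  rw [polar_f]
  simp only [q0, Real.cos_pi_div_four, Real.sin_pi_div_four, r0_mul]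
  rfl

/-- the loop turning `a` times around the disc and `k` times along the fibre -/
def loop (a k : ℤ) : FundamentalGroup M K.base :=
  K.polar.seg K.q0_mem (K.polar_period a k K.q0 K.q0_mem).1 K.polar_q0
    ((K.polar_period a k K.q0 K.q0_mem).2.trans K.polar_q0)

theorem relations :
    ∃ A B : FundamentalGroup M K.base, Commute (K.loop 0 1) A ∧ Commute (K.loop 0 1) B ∧
      K.loop 1 0 = B * A * B⁻¹ * A⁻¹ := by
  set h := K.lam / 2 with hh
  let T := K.strip 1 (Or.inr rfl) 1 (Or.inl rfl)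
  let R := K.strip 0 (Or.inl rfl) 1 (Or.inl rfl)
  let D := K.strip 1 (Or.inr rfl) (-1) (Or.inr rfl)
  let L := K.strip 0 (Or.inl rfl) (-1) (Or.inr rfl)
  have hT : ∀ a c, vec a h c ∈ T.K := fun a c => by
    simpa [T, strip, vec, hh, lt_sub_iff_add_lt] using K.half_mem
  have hR : ∀ b c, vec h b c ∈ R.K := fun b c => by
    simpa [R, strip, vec, hh, lt_sub_iff_add_lt] using K.half_mem
  have hD : ∀ a c, vec a (-h) c ∈ D.K := fun a c => by
    simpa [D, strip, vec, hh, lt_sub_iff_add_lt] using K.half_mem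
  have hL : ∀ b c, vec (-h) b c ∈ L.K := fun b c => by
    simpa [L, strip, vec, hh, lt_sub_iff_add_lt] using K.half_mem
  have ec : ∀ a b c : ℝ, (a = h ∨ a = -h) → (b = h ∨ b = -h) → (c = 0 ∨ c = 1) →
      K.e (vec a b c) = K.base := by
    intro a b c ha hb hc
    rcases hc with rfl | rfl
    · simpa using K.e_corner a b 0 ha hb
    · simpa using K.e_corner a b 1 ha hb
  let A : FundamentalGroup M K.base := T.seg (hT (-h) 0) (hT h 0)
    (ec _ _ _ (Or.inr rfl) (Or.inl rfl) (Or.inl rfl))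
    (ec _ _ _ (Or.inl rfl) (Or.inl rfl) (Or.inl rfl))
  let B : FundamentalGroup M K.base := R.seg (hR (-h) 0) (hR h 0)
    (ec _ _ _ (Or.inl rfl) (Or.inr rfl) (Or.inl rfl))
    (ec _ _ _ (Or.inl rfl) (Or.inl rfl) (Or.inl rfl))
  -- periods of the strips
  have pT : ∀ i k : ℤ, T.Period (perCore K.lam i 0 k) := by
    intro i k y hy
    have hy1 : (y + perCore K.lam i 0 k) 1 = y 1 := by simp [perCore, vec]
    refine ⟨by simpa [T, strip, hy1] using hy, K.per y (K.strip_mem_dom (Or.inl ?_)) i 0 k⟩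
    simpa [T, strip] using hy
  have pR : ∀ j k : ℤ, R.Period (perCore K.lam 0 j k) := by
    intro j k y hy
    have hy0 : (y + perCore K.lam 0 j k) 0 = y 0 := by simp [perCore, vec]
    refine ⟨by simpa [R, strip, hy0] using hy, K.per y (K.strip_mem_dom (Or.inr (Or.inl ?_))) 0 j k⟩
    simpa [R, strip] using hy
  have lm : ∀ a b a' b' c c' t : ℝ, AffineMap.lineMap (vec a b c) (vec a' b' c') t
      = vec (a + t * (a' - a)) (b + t * (b' - b)) (c + t * (c' - c)) := by
    intro a b a' b' c c' t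
    rw [AffineMap.lineMap_apply_module']
    refine vec_eq ?_ ?_ ?_ <;> simp [vec] <;> ring
  -- the fibre
  have fibT : K.loop 0 1 = T.seg (hT (-h) 0) (hT (-h) 1)
      (ec _ _ _ (Or.inr rfl) (Or.inl rfl) (Or.inl rfl))
      (ec _ _ _ (Or.inr rfl) (Or.inl rfl) (Or.inr rfl)) := by
    refine K.polar.seg_eq_seg T _ _ _ _ _ _ _ _ (fun t => AffineMap.lineMap (vec (-h) h 0)
      (vec (-h) h 1) (t : ℝ)) (AffineMap.lineMap_continuous.comp continuous_subtype_val)
      (T.lineMap_mem (hT _ _) (hT _ _)) (by simp) (by simp) fun t => ?_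
    rw [polar_f, lm]
    change _ = K.e _
    simp only [q0, AffineMap.lineMap_apply_module', Prod.smul_mk, Prod.mk_add_mk, Prod.mk_sub_mk,
      Int.cast_zero, Int.cast_one, mul_zero, add_zero, sub_self, zero_add, smul_eq_mul, sub_zero,
      Real.cos_pi_div_four, Real.sin_pi_div_four, r0_mul, mul_one]
    rw [← hh]
    refine K.e_per' (K.strip_mem_dom (Or.inl ?_)) 1 0 0 (by simp [vec, hh]; ring)
      (by simp [vec]) (by simp [vec])
    simpa [vec, hh] using K.half_mem
  have fibR : K.loop 0 1 = R.seg (hR (-h) 0) (hR (-h) 1)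
      (ec _ _ _ (Or.inl rfl) (Or.inr rfl) (Or.inl rfl))
      (ec _ _ _ (Or.inl rfl) (Or.inr rfl) (Or.inr rfl)) := by
    refine K.polar.seg_eq_seg R _ _ _ _ _ _ _ _ (fun t => AffineMap.lineMap (vec h (-h) 0)
      (vec h (-h) 1) (t : ℝ)) (AffineMap.lineMap_continuous.comp continuous_subtype_val)
      (R.lineMap_mem (hR _ _) (hR _ _)) (by simp) (by simp) fun t => ?_
    rw [polar_f, lm]
    change _ = K.e _
    simp only [q0, AffineMap.lineMap_apply_module', Prod.smul_mk, Prod.mk_add_mk, Prod.mk_sub_mk,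
      Int.cast_zero, Int.cast_one, mul_zero, add_zero, sub_self, zero_add, smul_eq_mul, sub_zero,
      Real.cos_pi_div_four, Real.sin_pi_div_four, r0_mul, mul_one]
    rw [← hh]
    refine K.e_per' (K.strip_mem_dom (Or.inr (Or.inl ?_))) 0 1 0 (by simp [vec])
      (by simp [vec, hh]; ring) (by simp [vec])
    simpa [vec, hh] using K.half_mem
  refine ⟨A, B, ?_, ?_, ?_⟩
  · rw [fibT]
    refine (T.loops_commute (hT (-h) 0) (hT h 0) (hT (-h) 1) (hT h 1) _ _ _
      (ec _ _ _ (Or.inl rfl) (Or.inl rfl) (Or.inr rfl)) ?_ ?_).symm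
    · refine T.seg_eq_seg T _ _ _ _ _ _ _ _
        (fun t => AffineMap.lineMap (vec (-h) h 0) (vec h h 0) (t : ℝ))
        (AffineMap.lineMap_continuous.comp continuous_subtype_val)
        (T.lineMap_mem (hT _ _) (hT _ _)) (by simp) (by simp) fun t => ?_
      rw [← (pT 0 1 _ (T.lineMap_mem (hT (-h) 0) (hT h 0) t)).2]
      congr 1
      simp only [lm, perCore, vec_add]
      congr 1 <;> simp
    · refine T.seg_eq_seg T _ _ _ _ _ _ _ _
        (fun t => AffineMap.lineMap (vec (-h) h 0) (vec (-h) h 1) (t : ℝ))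
        (AffineMap.lineMap_continuous.comp continuous_subtype_val)
        (T.lineMap_mem (hT _ _) (hT _ _)) (by simp) (by simp) fun t => ?_
      rw [← (pT 1 0 _ (T.lineMap_mem (hT (-h) 0) (hT (-h) 1) t)).2]
      congr 1
      simp only [lm, perCore, vec_add]
      congr 1 <;> simp [hh]
      ring
  · rw [fibR]
    refine (R.loops_commute (hR (-h) 0) (hR h 0) (hR (-h) 1) (hR h 1) _ _ _
      (ec _ _ _ (Or.inl rfl) (Or.inl rfl) (Or.inr rfl)) ?_ ?_).symm
    · refine R.seg_eq_seg R _ _ _ _ _ _ _ _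
        (fun t => AffineMap.lineMap (vec h (-h) 0) (vec h h 0) (t : ℝ))
        (AffineMap.lineMap_continuous.comp continuous_subtype_val)
        (R.lineMap_mem (hR _ _) (hR _ _)) (by simp) (by simp) fun t => ?_
      rw [← (pR 0 1 _ (R.lineMap_mem (hR (-h) 0) (hR h 0) t)).2]
      congr 1
      simp only [lm, perCore, vec_add]
      congr 1 <;> simp
    · refine R.seg_eq_seg R _ _ _ _ _ _ _ _
        (fun t => AffineMap.lineMap (vec h (-h) 0) (vec h (-h) 1) (t : ℝ))
        (AffineMap.lineMap_continuous.comp continuous_subtype_val)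
        (R.lineMap_mem (hR _ _) (hR _ _)) (by simp) (by simp) fun t => ?_
      rw [← (pR 1 0 _ (R.lineMap_mem (hR (-h) 0) (hR (-h) 1) t)).2]
      congr 1
      simp only [lm, perCore, vec_add]
      congr 1 <;> simp [hh]
      ring
  · -- the four sides
    have hpi := Real.pi_pos
    have q : ∀ n : ℝ, ((K.r0, Real.pi / 4 + n * (Real.pi / 2), 0) : ℝ × ℝ × ℝ) ∈ K.polar.K :=
      fun n => ⟨K.r0_mem, trivial⟩
    have trig : ∀ θ : ℝ, Real.cos (θ + Real.pi / 2) = -Real.sin θ ∧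
        Real.sin (θ + Real.pi / 2) = Real.cos θ := fun θ =>
      ⟨Real.cos_add_pi_div_two θ, Real.sin_add_pi_div_two θ⟩
    have c0 : Real.cos (Real.pi / 4) = Real.sqrt 2 / 2 := Real.cos_pi_div_four
    have s0 : Real.sin (Real.pi / 4) = Real.sqrt 2 / 2 := Real.sin_pi_div_four
    have v1 : vec (K.r0 * Real.cos (Real.pi / 4 + 1 * (Real.pi / 2)))
        (K.r0 * Real.sin (Real.pi / 4 + 1 * (Real.pi / 2))) 0 = vec (-h) h 0 := by
      rw [one_mul, (trig _).1, (trig _).2, c0, s0, mul_neg, K.r0_mul]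
    have v2 : vec (K.r0 * Real.cos (Real.pi / 4 + 2 * (Real.pi / 2)))
        (K.r0 * Real.sin (Real.pi / 4 + 2 * (Real.pi / 2))) 0 = vec (-h) (-h) 0 := by
      rw [show Real.pi / 4 + 2 * (Real.pi / 2) = Real.pi / 4 + Real.pi by ring, Real.cos_add_pi,
        Real.sin_add_pi, c0, s0, mul_neg, K.r0_mul]
    have v3 : vec (K.r0 * Real.cos (Real.pi / 4 + 3 * (Real.pi / 2)))
        (K.r0 * Real.sin (Real.pi / 4 + 3 * (Real.pi / 2))) 0 = vec h (-h) 0 := by
      rw [show Real.pi / 4 + 3 * (Real.pi / 2) = Real.pi / 4 + Real.pi / 2 + Real.pi by ring,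
        Real.cos_add_pi, Real.sin_add_pi, (trig _).1, (trig _).2, c0, s0, neg_neg, mul_neg,
        K.r0_mul]
    have v4 : vec (K.r0 * Real.cos (Real.pi / 4 + 4 * (Real.pi / 2)))
        (K.r0 * Real.sin (Real.pi / 4 + 4 * (Real.pi / 2))) 0 = vec h h 0 := by
      rw [show Real.pi / 4 + 4 * (Real.pi / 2) = Real.pi / 4 + 2 * Real.pi by ring,
        Real.cos_add_two_pi, Real.sin_add_two_pi, c0, s0, K.r0_mul]
    have v0 : vec (K.r0 * Real.cos (Real.pi / 4)) (K.r0 * Real.sin (Real.pi / 4)) 0 = vec h h 0 := by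
      rw [c0, s0, K.r0_mul]
    have b : ∀ n : ℝ, (n = 0 ∨ n = 1 ∨ n = 2 ∨ n = 3 ∨ n = 4) →
        K.polar.f (K.r0, Real.pi / 4 + n * (Real.pi / 2), 0) = K.base := by
      intro n hn
      rw [polar_f]
      rcases hn with rfl | rfl | rfl | rfl | rfl
      · rw [zero_mul, add_zero, v0]; exact ec _ _ _ (Or.inl rfl) (Or.inl rfl) (Or.inl rfl)
      · rw [v1]; exact ec _ _ _ (Or.inr rfl) (Or.inl rfl) (Or.inl rfl)
      · rw [v2]; exact ec _ _ _ (Or.inr rfl) (Or.inr rfl) (Or.inl rfl)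
      · rw [v3]; exact ec _ _ _ (Or.inl rfl) (Or.inr rfl) (Or.inl rfl)
      · rw [v4]; exact ec _ _ _ (Or.inl rfl) (Or.inl rfl) (Or.inl rfl)
    -- arcs
    have arc : ∀ (n : ℝ) (S : Sheet E3 M), S.f = K.e →
        (∀ u, Real.pi / 4 + n * (Real.pi / 2) ≤ u → u ≤ Real.pi / 4 + (n + 1) * (Real.pi / 2) →
          vec (K.r0 * Real.cos u) (K.r0 * Real.sin u) 0 ∈ S.K) →
        ∀ (a a' : E3) (ha : a ∈ S.K) (ha' : a' ∈ S.K) (hx : S.f a = K.base)
          (hy : S.f a' = K.base)
          (hb : K.polar.f (K.r0, Real.pi / 4 + n * (Real.pi / 2), 0) = K.base)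
          (hb' : K.polar.f (K.r0, Real.pi / 4 + (n + 1) * (Real.pi / 2), 0) = K.base),
          vec (K.r0 * Real.cos (Real.pi / 4 + n * (Real.pi / 2)))
            (K.r0 * Real.sin (Real.pi / 4 + n * (Real.pi / 2))) 0 = a →
          vec (K.r0 * Real.cos (Real.pi / 4 + (n + 1) * (Real.pi / 2)))
            (K.r0 * Real.sin (Real.pi / 4 + (n + 1) * (Real.pi / 2))) 0 = a' →
          K.polar.seg (q n) (q (n + 1)) hb hb' = S.seg ha ha' hx hy := by
      intro n S hSf hin a a' ha ha' hx hy hb hb' e e'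
      refine K.polar.seg_eq_seg S _ _ _ _ ha ha' hx hy
        (fun t => vec (K.r0 * Real.cos (Real.pi / 4 + (n + (t : ℝ)) * (Real.pi / 2)))
          (K.r0 * Real.sin (Real.pi / 4 + (n + (t : ℝ)) * (Real.pi / 2))) 0) ?_ (fun t => ?_)
        (by simpa using e) (by simpa using e') fun t => ?_
      · refine (PiLp.continuous_toLp 2 _).comp (continuous_pi fun i => ?_)
        fin_cases i <;> simp <;> fun_prop
      · have := t.2.1; have := t.2.2
        exact hin _ (by nlinarith) (by nlinarith)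
      · rw [hSf, polar_f]
        simp only [AffineMap.lineMap_apply_module', Prod.smul_mk, Prod.mk_add_mk, Prod.mk_sub_mk,
          sub_self, smul_eq_mul, add_zero]
        congr 3 <;> ring_nf
    have sT : ∀ u, Real.pi / 4 + 0 * (Real.pi / 2) ≤ u →
        u ≤ Real.pi / 4 + (0 + 1) * (Real.pi / 2) →
        vec (K.r0 * Real.cos u) (K.r0 * Real.sin u) 0 ∈ T.K := fun u h1 h2 => by
      simpa [T, strip, vec] using K.r0_sin_mem (u := u) (by linarith) (by linarith)
    have sL : ∀ u, Real.pi / 4 + 1 * (Real.pi / 2) ≤ u →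
        u ≤ Real.pi / 4 + (1 + 1) * (Real.pi / 2) →
        vec (K.r0 * Real.cos u) (K.r0 * Real.sin u) 0 ∈ L.K := fun u h1 h2 => by
      have := K.r0_sin_mem (u := u - Real.pi / 2) (by linarith) (by linarith)
      rw [Real.sin_sub_pi_div_two] at this
      simpa [L, strip, vec, mul_neg] using this
    have sD : ∀ u, Real.pi / 4 + 2 * (Real.pi / 2) ≤ u →
        u ≤ Real.pi / 4 + (2 + 1) * (Real.pi / 2) →
        vec (K.r0 * Real.cos u) (K.r0 * Real.sin u) 0 ∈ D.K := fun u h1 h2 => by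
      have := K.r0_sin_mem (u := u - Real.pi) (by linarith) (by linarith)
      rw [Real.sin_sub_pi] at this
      simpa [D, strip, vec, mul_neg] using this
    have sR : ∀ u, Real.pi / 4 + 3 * (Real.pi / 2) ≤ u →
        u ≤ Real.pi / 4 + (3 + 1) * (Real.pi / 2) →
        vec (K.r0 * Real.cos u) (K.r0 * Real.sin u) 0 ∈ R.K := fun u h1 h2 => by
      have := K.r0_sin_mem (u := u - 3 * Real.pi / 2) (by linarith) (by linarith)
      rw [show u - 3 * Real.pi / 2 = u + Real.pi / 2 - 2 * Real.pi by ring,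
        Real.sin_sub_two_pi, Real.sin_add_pi_div_two] at this
      simpa [R, strip, vec] using this
    have n1 : (0 : ℝ) + 1 = 1 := by norm_num
    have n2 : (1 : ℝ) + 1 = 2 := by norm_num
    have n3 : (2 : ℝ) + 1 = 3 := by norm_num
    have n4 : (3 : ℝ) + 1 = 4 := by norm_num
    have side1 : K.polar.seg (q 0) (q (0 + 1)) (b 0 (by norm_num)) (b _ (by norm_num)) = A⁻¹ := by
      rw [arc 0 T rfl sT _ _ (hT h 0) (hT (-h) 0)
        (ec _ _ _ (Or.inl rfl) (Or.inl rfl) (Or.inl rfl))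
        (ec _ _ _ (Or.inr rfl) (Or.inl rfl) (Or.inl rfl)) _ _
        (by rw [zero_mul, add_zero]; exact v0) (by rw [n1]; exact v1)]
      exact (T.seg_symm _ _ _ _).symm
    have side2 : K.polar.seg (q 1) (q (1 + 1)) (b 1 (by norm_num)) (b _ (by norm_num)) = B⁻¹ := by
      rw [arc 1 L rfl sL _ _ (hL h 0) (hL (-h) 0)
        (ec _ _ _ (Or.inr rfl) (Or.inl rfl) (Or.inl rfl))
        (ec _ _ _ (Or.inr rfl) (Or.inr rfl) (Or.inl rfl)) _ _ v1 (by rw [n2]; exact v2)]
      refine Eq.trans ?_ (R.seg_symm _ _ _ _).symm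
      refine L.seg_eq_seg R _ _ _ _ _ _ _ _ (fun t => AffineMap.lineMap (vec h h 0)
        (vec h (-h) 0) (t : ℝ)) (AffineMap.lineMap_continuous.comp continuous_subtype_val)
        (R.lineMap_mem (hR _ _) (hR _ _)) (by simp) (by simp) fun t => ?_
      change K.e _ = K.e _
      rw [lm, lm]
      refine K.e_per' (K.strip_mem_dom (Or.inr (Or.inl ?_))) (-1) 0 0 (by simp [vec, hh]; ring)
        (by simp [vec]) (by simp [vec])
      simpa [vec, hh] using K.half_mem
    have side3 : K.polar.seg (q 2) (q (2 + 1)) (b 2 (by norm_num)) (b _ (by norm_num)) = A := by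
      rw [arc 2 D rfl sD _ _ (hD (-h) 0) (hD h 0)
        (ec _ _ _ (Or.inr rfl) (Or.inr rfl) (Or.inl rfl))
        (ec _ _ _ (Or.inl rfl) (Or.inr rfl) (Or.inl rfl)) _ _ v2 (by rw [n3]; exact v3)]
      refine D.seg_eq_seg T _ _ _ _ _ _ _ _ (fun t => AffineMap.lineMap (vec (-h) h 0)
        (vec h h 0) (t : ℝ)) (AffineMap.lineMap_continuous.comp continuous_subtype_val)
        (T.lineMap_mem (hT _ _) (hT _ _)) (by simp) (by simp) fun t => ?_
      change K.e _ = K.e _
      rw [lm, lm]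
      refine K.e_per' (K.strip_mem_dom (Or.inl ?_)) 0 (-1) 0 (by simp [vec])
        (by simp [vec, hh]; ring) (by simp [vec])
      simpa [vec, hh] using K.half_mem
    have side4 : K.polar.seg (q 3) (q (3 + 1)) (b 3 (by norm_num)) (b _ (by norm_num)) = B :=
      arc 3 R rfl sR _ _ (hR (-h) 0) (hR h 0) _ _ _ _ v3 (by rw [n4]; exact v4)
    rw [FundamentalGroup.mul_def, FundamentalGroup.mul_def, FundamentalGroup.mul_def,
      ← side1, ← side2, ← side3, ← side4]
    simp only [n1, n2, n3, n4]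
    rw [K.polar.seg_trans, K.polar.seg_trans, K.polar.seg_trans]
    simp only [loop, q0, Prod.mk_add_mk, Int.cast_one, Int.cast_zero, mul_one, add_zero]
    congr 1
    all_goals first | rfl | (simp only [zero_mul, add_zero]) | (ext <;> simp <;> ring)

end Core

/-- the cylinder as a sheet -/
def cylSheet (S : ModelSpec) : Sheet E3 S.M where
  f := S.eC
  K := domC
  conv := (convex_Ioo _ _).linear_preimage (EuclideanSpace.proj (𝕜 := ℝ) (0 : Fin 3)).toLinearMap
  cont := S.contC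

lemma origin_mem (S : ModelSpec) : vec 0 0 0 ∈ (cylSheet S).K := by simp [cylSheet, domC, vec]

lemma cyl_period (S : ModelSpec) (i j : ℤ) : (cylSheet S).Period (perC i j) := by
  intro y hy
  have h : y + perC i j ∈ domC := by
    have := (add_perC y i j).1
    simp only [domC, Set.mem_ofPred_eq, this]
    exact hy
  exact ⟨h, ((S.eqC y hy _ h).2 ⟨i, j, rfl⟩).symm⟩

/-- the loop `(0, i s, j s)` -/
def cylLoop (S : ModelSpec) (i j : ℤ) : FundamentalGroup S.M (S.eC (vec 0 0 0)) :=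
  (cylSheet S).seg (a := vec 0 0 0) (origin_mem S) (cyl_period S i j _ (origin_mem S)).1 rfl
    (cyl_period S i j _ (origin_mem S)).2

lemma cylLoop_mul (S : ModelSpec) (i j k l : ℤ) :
    cylLoop S i j * cylLoop S k l = cylLoop S (i + k) (j + l) := by
  refine ((cylSheet S).seg_period_trans (cyl_period S i j) (cyl_period S k l) (origin_mem S)
    rfl).trans ?_
  unfold cylLoop
  congr 1
  simp [perC, vec_add]

/-- A loop of the cylinder near a core is a conjugate of a loop of the core. -/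
lemma cylLoop_core (S : ModelSpec) (K : Core S.M) {r R : ℝ} (hr : r ∈ Ioo (-3 : ℝ) 4)
    (hR : R ∈ Ioo K.rho (K.lam - K.rho)) (h0 : S.eC (vec r 0 0) = K.polar.f (R, 0, 0)) :
    ∃ φ : FundamentalGroup S.M K.base →* FundamentalGroup S.M (S.eC (vec 0 0 0)),
      ∀ i j a k : ℤ,
        (∀ t : ℝ, S.eC (vec r (t * i) (t * j)) = K.polar.f (R, t * (2 * Real.pi * a), t * k)) →
        cylLoop S i j = φ (K.loop a k) := by
  have hp : vec r 0 0 ∈ (cylSheet S).K := by simpa [cylSheet, domC, vec] using hr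
  have hq : ((R, 0, 0) : ℝ × ℝ × ℝ) ∈ K.polar.K := ⟨hR, trivial⟩
  refine ⟨(conjHom ((cylSheet S).seg (origin_mem S) hp rfl h0)).comp
    (conjHom (K.polar.seg hq K.q0_mem rfl K.polar_q0)), fun i j a k H => ?_⟩
  have hper := cyl_period S i j
  refine Eq.trans ((cylSheet S).seg_period hper (origin_mem S) hp rfl h0) ?_
  change _ = (((cylSheet S).seg (origin_mem S) hp rfl h0).trans
    (((K.polar.seg hq K.q0_mem rfl K.polar_q0).trans (K.loop a k)).trans
      (K.polar.seg hq K.q0_mem rfl K.polar_q0).symm)).trans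
    ((cylSheet S).seg (origin_mem S) hp rfl h0).symm
  congr 2
  unfold Core.loop
  rw [← K.polar.seg_period (K.polar_period a k) hq K.q0_mem rfl K.polar_q0]
  refine (cylSheet S).seg_eq_seg K.polar _ _ _ _ _ _ _ _
    (fun t => (R, (t : ℝ) * (2 * Real.pi * a), (t : ℝ) * k)) (by fun_prop)
    (fun t => ⟨hR, trivial⟩) (by simp) (by simp) fun t => ?_
  change S.eC _ = _
  rw [← H]
  congr 1
  rw [AffineMap.lineMap_apply_module']
  refine vec_eq ?_ ?_ ?_ <;> simp [vec, perC]

/-- the left core -/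
def coreL (S : ModelSpec) : Core S.M where
  e := S.eL
  lam := lamL
  rho := rhoL
  rho_pos := rhoL_pos
  lam_eq := rfl
  cont := S.contL
  per y hy i j k := ((S.eqL y hy _ (domCore_add hy i j k)).2 ⟨i, j, k, rfl⟩).symm

/-- the right core -/
def coreR (S : ModelSpec) : Core S.M where
  e := S.eR
  lam := lamR
  rho := rhoR
  rho_pos := rhoR_pos
  lam_eq := rfl
  cont := S.contR
  per y hy i j k := ((S.eqR y hy _ (domCore_add hy i j k)).2 ⟨i, j, k, rfl⟩).symm

theorem loops (S : ModelSpec) :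
    ∃ (x₀ : S.M) (f₁ f₂ a₁ b₁ a₂ b₂ : FundamentalGroup S.M x₀),
      Commute f₁ a₁ ∧ Commute f₁ b₁ ∧ Commute f₂ a₂ ∧ Commute f₂ b₂ ∧ Commute f₁ f₂ ∧
      f₂ = a₁ * b₁ * a₁⁻¹ * b₁⁻¹ ∧ f₁ * f₂⁻¹ = a₂ * b₂ * a₂⁻¹ * b₂⁻¹ ∧ f₂ ≠ 1 := by
  have hLr : rhoL + 1 ∈ Ioo (coreL S).rho ((coreL S).lam - (coreL S).rho) := by
    change rhoL + 1 ∈ Ioo rhoL (lamL - rhoL)
    constructor <;> linarith [rhoL_pos, show lamL = 4 * (rhoL + 2) from rfl]
  have hRr : rhoR + 1 / 2 ∈ Ioo (coreR S).rho ((coreR S).lam - (coreR S).rho) := by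
    change rhoR + 1 / 2 ∈ Ioo rhoR (lamR - rhoR)
    constructor <;> linarith [rhoR_pos, show lamR = 4 * (rhoR + 2) from rfl]
  have eLf : ∀ v u : ℝ, S.eC (vec (-2) v u)
      = (coreL S).polar.f (rhoL + 1, 2 * Real.pi * (v - u), u) := by
    intro v u
    have hy : vec (-2) v u ∈ domC := by norm_num [domC, vec]
    rw [Core.polar_f]
    refine (S.eqCL _ hy _ ((coreL S).polar_dom hLr)).2 ⟨by simp [vec], 0, 0, 0, ?_⟩
    simp only [toL, (vec_apply3 _ _ _).1, (vec_apply3 _ _ _).2.1, (vec_apply3 _ _ _).2.2,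
      wL_radius (r := -2) (by norm_num) (by norm_num), perCore, vec_add]
    congr 1 <;> norm_num
  have eRf : ∀ v u : ℝ, S.eC (vec (7 / 2) v u)
      = (coreR S).polar.f (rhoR + 1 / 2, 2 * Real.pi * u, v) := by
    intro v u
    have hy : vec (7 / 2) v u ∈ domC := by
      simp only [domC, Set.mem_ofPred_eq, (vec_apply3 _ _ _).1]
      constructor <;> norm_num
    rw [Core.polar_f]
    refine (S.eqCR _ hy _ ((coreR S).polar_dom hRr)).2 ⟨by norm_num [vec], 0, 0, 0, ?_⟩
    simp only [toR, (vec_apply3 _ _ _).1, (vec_apply3 _ _ _).2.1, (vec_apply3 _ _ _).2.2,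
      wR_radius (r := 7 / 2) (by norm_num) (by norm_num), perCore, vec_add]
    congr 1 <;> norm_num
  obtain ⟨φL, hφL⟩ := cylLoop_core S (coreL S) (r := -2) ⟨by norm_num, by norm_num⟩ hLr
    (by rw [eLf]; norm_num)
  obtain ⟨φR, hφR⟩ := cylLoop_core S (coreR S) (r := 7 / 2) ⟨by norm_num, by norm_num⟩ hRr
    (by rw [eRf]; norm_num)
  obtain ⟨A₁, B₁, hA₁, hB₁, hC₁⟩ := (coreL S).relations
  obtain ⟨A₂, B₂, hA₂, hB₂, hC₂⟩ := (coreR S).relations
  have eL1 : cylLoop S 1 1 = φL ((coreL S).loop 0 1) := hφL 1 1 0 1 fun t => by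
    rw [eLf]; norm_num
  have eL2 : cylLoop S 1 0 = φL ((coreL S).loop 1 0) := hφL 1 0 1 0 fun t => by
    rw [eLf]; norm_num; ring_nf
  have eR1 : cylLoop S 1 0 = φR ((coreR S).loop 0 1) := hφR 1 0 0 1 fun t => by
    rw [eRf]; norm_num
  have eR2 : cylLoop S 0 1 = φR ((coreR S).loop 1 0) := hφR 0 1 1 0 fun t => by
    rw [eRf]; norm_num; ring_nf
  refine ⟨S.eC (vec 0 0 0), cylLoop S 1 1, cylLoop S 1 0, φL B₁, φL A₁, φR B₂, φR A₂,
    eL1 ▸ hB₁.map φL, eL1 ▸ hA₁.map φL, eR1 ▸ hB₂.map φR, eR1 ▸ hA₂.map φR, ?_, ?_, ?_, ?_⟩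
  · change _ = _
    rw [cylLoop_mul, cylLoop_mul, add_comm (1 : ℤ) 0]
  · rw [eL2, hC₁, map_mul, map_mul, map_mul, map_inv, map_inv]
  · rw [mul_inv_eq_iff_eq_mul, show cylLoop S 1 1 = cylLoop S 0 1 * cylLoop S 1 0 from
      (cylLoop_mul S 0 1 1 0).symm, eR2, hC₂, map_mul, map_mul, map_mul, map_inv, map_inv]
  · intro h
    have h' : Path.Homotopic.Quotient.mk
        ((cylSheet S).segPath (a := vec 0 0 0) (origin_mem S) (cyl_period S 1 0 _ (origin_mem S)).1 rfl
          (cyl_period S 1 0 _ (origin_mem S)).2)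
        = Path.Homotopic.Quotient.mk (Path.refl (S.eC (vec 0 0 0))) := by
      exact h
    refine vLoop_essential S _ (fun t => ?_) (Path.Homotopic.Quotient.eq.1 h')
    change S.eC _ = _
    congr 1
    rw [AffineMap.lineMap_apply_module']
    refine vec_eq ?_ ?_ ?_ <;> simp [vec, perC]

end Vale.Agent.P255
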