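import Mathlib

/-!
# P255 module E: the Heisenberg nilmanifold and its central circle
-/

open Set Topology
open scoped unitInterval

noncomputable section

namespace Vale.Agent.P255

/-- the integral Heisenberg group -/
@[ext] structure Hei where
  a : ℤ
  b : ℤ
  c : ℤ

instance : Mul Hei := ⟨fun g h => ⟨g.a + h.a, g.b + h.b, g.c + h.c + g.a * h.b⟩⟩
instance : One Hei := ⟨⟨0, 0, 0⟩⟩
instance : Inv Hei := ⟨fun g => ⟨-g.a, -g.b, -g.c + g.a * g.b⟩⟩

lemma Hei.mul_def (g h : Hei) :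
    g * h = ⟨g.a + h.a, g.b + h.b, g.c + h.c + g.a * h.b⟩ := rfl
lemma Hei.one_def : (1 : Hei) = ⟨0, 0, 0⟩ := rfl
lemma Hei.inv_def (g : Hei) : g⁻¹ = ⟨-g.a, -g.b, -g.c + g.a * g.b⟩ := rfl

instance : Group Hei where
  mul_assoc g h k := by ext <;> simp [Hei.mul_def] <;> ring
  one_mul g := by ext <;> simp [Hei.mul_def, Hei.one_def]
  mul_one g := by ext <;> simp [Hei.mul_def, Hei.one_def]
  inv_mul_cancel g := by ext <;> simp [Hei.mul_def, Hei.one_def, Hei.inv_def]

/-- the real Heisenberg group, as a space -/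
abbrev Hp := ℝ × ℝ × ℝ

instance : MulAction Hei Hp where
  smul g p := (p.1 + g.a, p.2.1 + g.b, p.2.2 + g.c + g.a * p.2.1)
  one_smul p := by
    show (p.1 + ((0 : ℤ) : ℝ), p.2.1 + ((0 : ℤ) : ℝ),
      p.2.2 + ((0 : ℤ) : ℝ) + ((0 : ℤ) : ℝ) * p.2.1) = p
    simp
  mul_smul g h p := by
    show (p.1 + ((g.a + h.a : ℤ) : ℝ), p.2.1 + ((g.b + h.b : ℤ) : ℝ),
        p.2.2 + ((g.c + h.c + g.a * h.b : ℤ) : ℝ) + ((g.a + h.a : ℤ) : ℝ) * p.2.1)
      = (p.1 + (h.a : ℝ) + g.a, p.2.1 + (h.b : ℝ) + g.b,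
        p.2.2 + (h.c : ℝ) + h.a * p.2.1 + g.c + g.a * (p.2.1 + h.b))
    push_cast
    ext <;> simp <;> ring

lemma Hei.smul_def (g : Hei) (p : Hp) :
    g • p = (p.1 + (g.a : ℝ), p.2.1 + (g.b : ℝ), p.2.2 + g.c + g.a * p.2.1) := rfl

/-- the nilmanifold -/
abbrev Nil := MulAction.orbitRel.Quotient Hei Hp

/-- the projection -/
def toNil (p : Hp) : Nil := Quotient.mk (MulAction.orbitRel Hei Hp) p

/-- the central circle -/
def centre (z : ℝ) : Nil := toNil (0, 0, z)

lemma toNil_smul (g : Hei) (p : Hp) : toNil (g • p) = toNil p :=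
  Quotient.sound ⟨g, rfl⟩

lemma continuous_toNil : Continuous toNil := continuous_quotient_mk'

lemma continuous_centre : Continuous centre :=
  continuous_toNil.comp (continuous_const.prodMk (continuous_const.prodMk continuous_id))

lemma toNil_add_int (x y z : ℝ) (n : ℤ) : toNil (x, y, z + n) = toNil (x, y, z) := by
  rw [← toNil_smul ⟨0, 0, n⟩ (x, y, z), Hei.smul_def]
  simp

lemma centre_add_int (z : ℝ) (n : ℤ) : centre (z + n) = centre z := toNil_add_int 0 0 z n

theorem isQuotientCoveringMap_toNil : IsQuotientCoveringMap toNil Hei where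
  toIsQuotientMap := isQuotientMap_quotient_mk'
  continuous_const_smul g := by
    simp only [Hei.smul_def]
    fun_prop
  apply_eq_iff_mem_orbit := Quotient.eq''
  disjoint e := by
    refine ⟨Metric.ball e (1 / 3), Metric.ball_mem_nhds _ (by norm_num), fun g hg => ?_⟩
    obtain ⟨_, ⟨p, hp, rfl⟩, hq⟩ := hg
    have hd : dist (g • p) p < 1 := by
      have h1 : dist (g • p) e < 1 / 3 := hq
      have h2 : dist p e < 1 / 3 := hp
      linarith [dist_triangle_right (g • p) p e]
    rw [Hei.smul_def, Prod.dist_eq, Prod.dist_eq, max_lt_iff, max_lt_iff] at hd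
    obtain ⟨ha, hb, hc⟩ := hd
    simp only [Real.dist_eq, add_sub_cancel_left] at ha hb
    have ha' : g.a = 0 := Int.abs_lt_one_iff.1 (by exact_mod_cast ha)
    have hb' : g.b = 0 := Int.abs_lt_one_iff.1 (by exact_mod_cast hb)
    rw [ha'] at hc
    simp only [Real.dist_eq, Int.cast_zero, zero_mul, add_zero, add_sub_cancel_left] at hc
    have hc' : g.c = 0 := Int.abs_lt_one_iff.1 (by exact_mod_cast hc)
    ext <;> simp [ha', hb', hc', Hei.one_def]

/-- the central circle is essential -/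
theorem centre_loop_essential (P : Path (centre 0) (centre 0))
    (hP : ∀ t : I, P t = centre (t : ℝ)) : ¬ P.Homotopic (Path.refl (centre 0)) := by
  intro h
  have cov : IsCoveringMap toNil := isQuotientCoveringMap_toNil.isCoveringMap
  have key := cov.liftPath_apply_one_eq_of_homotopicRel h (0, 0, 0) P.source rfl
  let Γ : C(I, Hp) := ⟨fun t => (0, 0, (t : ℝ)), by fun_prop⟩
  have e1 : Γ = cov.liftPath P.toContinuousMap (0, 0, 0) P.source :=
    (cov.eq_liftPath_iff' _).2 ⟨funext fun t => (hP t).symm, rfl⟩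
  have e2 : ContinuousMap.const I ((0, 0, 0) : Hp)
      = cov.liftPath (Path.refl (centre 0)).toContinuousMap (0, 0, 0) rfl :=
    (cov.eq_liftPath_iff' _).2 ⟨funext fun t => rfl, rfl⟩
  rw [← e1, ← e2] at key
  simp [Γ, Prod.ext_iff] at key

end Vale.Agent.P255
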