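import Mathlib

/-!
# P255 module E: staircase functions used to map the example to the Heisenberg nilmanifold
-/

open Set

noncomputable section

namespace Vale.Agent.P255

/-- clamp to the unit interval -/
def ramp (s : ℝ) : ℝ := max 0 (min 1 s)

lemma ramp_eq_zero {s : ℝ} (h : s ≤ 0) : ramp s = 0 := by
  simp [ramp, min_le_of_right_le h]

lemma ramp_eq_one {s : ℝ} (h : 1 ≤ s) : ramp s = 1 := by
  simp [ramp, min_eq_left h]

lemma continuous_ramp : Continuous ramp := continuous_const.max (continuous_const.min continuous_id)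

/-- the degree one staircase whose steps are within `d` of the integers -/
def st (d y : ℝ) : ℝ :=
  (⌊y + 1 / 2⌋ : ℝ) + ramp ((Int.fract (y + 1 / 2) - 1 / 2) / (2 * d) + 1 / 2)

lemma st_add_int (d y : ℝ) (n : ℤ) : st d (y + n) = st d y + n := by
  simp only [st]
  rw [show y + (n : ℝ) + 1 / 2 = y + 1 / 2 + n by ring, Int.floor_add_intCast,
    Int.fract_add_intCast]
  push_cast
  ring

lemma continuous_st {d : ℝ} (hd : 0 < d) (hd' : d ≤ 1 / 2) : Continuous (st d) := by
  have hf : Continuous ((fun s : ℝ => ramp ((s - 1 / 2) / (2 * d) + 1 / 2) - s) ∘ Int.fract) := by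
    refine ContinuousOn.comp_fract'' ?_ ?_
    · exact ((continuous_ramp.comp (by fun_prop)).sub continuous_id).continuousOn
    · have h1 : (1 : ℝ) / 2 ≤ 1 / 2 / (2 * d) := by
        rw [le_div_iff₀ (by positivity)]; linarith
      rw [ramp_eq_zero, ramp_eq_one]
      · ring
      · rw [show (1 : ℝ) - 1 / 2 = 1 / 2 by norm_num]; linarith
      · rw [show ((0 : ℝ) - 1 / 2) / (2 * d) = -(1 / 2 / (2 * d)) by ring]; linarith
  have he : st d = fun y => y + 1 / 2 +
      ((fun s : ℝ => ramp ((s - 1 / 2) / (2 * d) + 1 / 2) - s) ∘ Int.fract) (y + 1 / 2) := by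
    funext y
    simp only [st, Function.comp, ← Int.self_sub_fract]
    ring
  rw [he]
  exact (continuous_id.add continuous_const).add (hf.comp (continuous_id.add continuous_const))

lemma st_between {d y : ℝ} (hd : 0 < d) (k : ℤ) (h1 : (k : ℝ) + d ≤ y)
    (h2 : y ≤ (k : ℝ) + 1 - d) : st d y = k + 1 := by
  rcases lt_or_ge y ((k : ℝ) + 1 / 2) with h | h
  · have hf : ⌊y + 1 / 2⌋ = k := Int.floor_eq_iff.2 ⟨by linarith, by linarith⟩
    simp only [st, Int.fract, hf]
    rw [ramp_eq_one]
    have : (1 : ℝ) / 2 ≤ (y + 1 / 2 - k - 1 / 2) / (2 * d) := by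
      rw [le_div_iff₀ (by positivity)]; linarith
    linarith
  · have hf : ⌊y + 1 / 2⌋ = k + 1 :=
      Int.floor_eq_iff.2 ⟨by push_cast; linarith, by push_cast; linarith⟩
    simp only [st, Int.fract, hf]
    push_cast
    rw [ramp_eq_zero, add_zero]
    have : (y + 1 / 2 - ((k : ℝ) + 1) - 1 / 2) / (2 * d) ≤ -1 / 2 := by
      rw [div_le_iff₀ (by positivity)]; linarith
    linarith

/-- the staircase vanishing near the integer `0` -/
def flatStep (y : ℝ) : ℝ := st (1 / 4) (y - 1 / 2)

lemma flatStep_add_int (y : ℝ) (n : ℤ) : flatStep (y + n) = flatStep y + n := by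
  rw [flatStep, flatStep, show y + (n : ℝ) - 1 / 2 = y - 1 / 2 + n by ring, st_add_int]

lemma continuous_flatStep : Continuous flatStep :=
  (continuous_st (by norm_num) (by norm_num)).comp (continuous_id.sub continuous_const)

lemma flatStep_eq_zero {y : ℝ} (h1 : -(1 / 4) ≤ y) (h2 : y ≤ 1 / 4) : flatStep y = 0 := by
  rw [flatStep, st_between (by norm_num) (-1) (by push_cast; linarith) (by push_cast; linarith)]
  norm_num

/-- a lift of the central coordinate on the circle of radius `R`, as a function of the angle -/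
def turnLift (d R b : ℝ) : ℝ :=
  (⌊b⌋ : ℝ) + 1 - st d (R * Real.sin (2 * Real.pi * max (1 / 4) (min (3 / 4) (Int.fract b))))

lemma turnLift_add_int (d R b : ℝ) (n : ℤ) : turnLift d R (b + n) = turnLift d R b + n := by
  simp only [turnLift, Int.floor_add_intCast, Int.fract_add_intCast]
  push_cast
  ring

/-- the radius clamped to `[d, 1/4]` -/
def clampR (d R : ℝ) : ℝ := max d (min (1 / 4) R)

lemma continuous_turnLift {d : ℝ} (hd : 0 < d) (hd' : d ≤ 1 / 4) {α : Type} [TopologicalSpace α]
    {R b : α → ℝ} (hR : Continuous R) (hb : Continuous b) :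
    Continuous fun a => turnLift d (clampR d (R a)) (b a) := by
  have hst := continuous_st hd (hd'.trans (by norm_num))
  have hc : Continuous fun a => clampR d (R a) :=
    continuous_const.max (continuous_const.min hR)
  have hf : Continuous fun a : α => (fun a' (t : ℝ) =>
      1 - st d (clampR d (R a') * Real.sin (2 * Real.pi * max (1 / 4) (min (3 / 4) t))) - t)
      a (Int.fract (b a)) := by
    refine ContinuousOn.comp_fract (f := fun a' (t : ℝ) =>
      1 - st d (clampR d (R a') * Real.sin (2 * Real.pi * max (1 / 4) (min (3 / 4) t))) - t)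
      ?_ hb fun a => ?_
    · refine Continuous.continuousOn ?_
      simp only [Function.uncurry_def]
      refine (continuous_const.sub (hst.comp ((hc.comp continuous_fst).mul ?_))).sub continuous_snd
      fun_prop
    · have h1 : d ≤ clampR d (R a) := le_max_left _ _
      have h2 : clampR d (R a) ≤ 1 / 4 := max_le hd' (min_le_left _ _)
      have a0 : st d (clampR d (R a)) = 1 := by
        rw [st_between hd 0 (by simpa using h1) (by push_cast; linarith)]; norm_num
      have a1 : st d (-clampR d (R a)) = 0 := by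
        rw [st_between hd (-1) (by push_cast; linarith) (by push_cast; linarith)]; norm_num
      rw [min_eq_right (show (0 : ℝ) ≤ 3 / 4 by norm_num), max_eq_left (show (0 : ℝ) ≤ 1 / 4 by norm_num),
        min_eq_left (show (3 / 4 : ℝ) ≤ 1 by norm_num),
        max_eq_right (show (1 / 4 : ℝ) ≤ 3 / 4 by norm_num),
        show 2 * Real.pi * (1 / 4) = Real.pi / 2 by ring,
        show 2 * Real.pi * (3 / 4) = Real.pi / 2 + Real.pi by ring, Real.sin_add_pi,
        Real.sin_pi_div_two, mul_one, mul_neg_one, a0, a1]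
      norm_num
  have he : (fun a => turnLift d (clampR d (R a)) (b a)) = fun a => b a +
      (1 - st d (clampR d (R a) *
        Real.sin (2 * Real.pi * max (1 / 4) (min (3 / 4) (Int.fract (b a))))) - Int.fract (b a)) := by
    funext a
    simp only [turnLift]
    linear_combination (Int.floor_add_fract (b a))
  rw [he]
  exact hb.add hf

/-- on the circle the lift agrees modulo the integers with `⌊x⌋ * st d y` -/
lemma turnLift_circle {d R : ℝ} (hd : 0 < d) (h1 : d ≤ R) (h2 : R ≤ 1 / 4) (b : ℝ) :
    ∃ n : ℤ, (⌊R * Real.cos (2 * Real.pi * b)⌋ : ℝ) * st d (R * Real.sin (2 * Real.pi * b))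
      = turnLift d R b + n := by
  set t := Int.fract b with ht
  have ht0 : 0 ≤ t := Int.fract_nonneg b
  have ht1 : t < 1 := Int.fract_lt_one b
  have e : 2 * Real.pi * b = 2 * Real.pi * t + (⌊b⌋ : ℝ) * (2 * Real.pi) := by
    rw [ht, ← Int.self_sub_floor]; ring
  rw [e, Real.cos_add_int_mul_two_pi, Real.sin_add_int_mul_two_pi, turnLift, ← ht]
  have hR : 0 ≤ R := by linarith
  have hpi := Real.pi_pos
  have hfl : ∀ c : ℝ, 0 ≤ c → c ≤ 1 → ⌊R * c⌋ = 0 := fun c h0 hc =>
    Int.floor_eq_iff.2 ⟨by simpa using mul_nonneg hR h0, by push_cast; nlinarith⟩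
  rcases le_or_gt t (1 / 4) with h | h
  · refine ⟨-⌊b⌋, ?_⟩
    rw [hfl _ (Real.cos_nonneg_of_mem_Icc ⟨by nlinarith, by nlinarith⟩) (Real.cos_le_one _),
      min_eq_right (by linarith), max_eq_left h,
      show 2 * Real.pi * (1 / 4) = Real.pi / 2 by ring, Real.sin_pi_div_two, mul_one,
      st_between (y := R) hd 0 (by simpa using h1) (by push_cast; linarith)]
    push_cast; ring
  rcases lt_or_ge t (3 / 4) with h' | h'
  · refine ⟨-(⌊b⌋ + 1), ?_⟩
    have hc : Real.cos (2 * Real.pi * t) < 0 :=
      Real.cos_neg_of_pi_div_two_lt_of_lt (by nlinarith) (by nlinarith)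
    have hf : ⌊R * Real.cos (2 * Real.pi * t)⌋ = -1 := by
      refine Int.floor_eq_iff.2 ⟨?_, ?_⟩ <;> push_cast
      · nlinarith [Real.neg_one_le_cos (2 * Real.pi * t)]
      · nlinarith
    rw [hf, min_eq_right h'.le, max_eq_right h.le]
    push_cast; ring
  · refine ⟨-(⌊b⌋ + 1), ?_⟩
    have hc : 0 ≤ Real.cos (2 * Real.pi * t) := by
      rw [← Real.cos_sub_two_pi]
      exact Real.cos_nonneg_of_mem_Icc ⟨by nlinarith, by nlinarith⟩
    rw [hfl _ hc (Real.cos_le_one _), min_eq_left h', max_eq_right (by norm_num),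
      show 2 * Real.pi * (3 / 4) = Real.pi / 2 + Real.pi by ring, Real.sin_add_pi,
      Real.sin_pi_div_two, mul_neg_one,
      st_between (y := -R) hd (-1) (by push_cast; linarith) (by push_cast; linarith)]
    push_cast; ring

end Vale.Agent.P255
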