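import Vale.Agent.P255.Model.Spec
import Vale.Agent.P255.Profile.Basic
import Vale.Agent.P255.Model.Transition
import Vale.Agent.P255.Topo.Stair
import Vale.Agent.P255.Topo.Nil

/-!
# P255 module E: a map of the example into the Heisenberg nilmanifold

The left piece is mapped by (staircases, a central coordinate winding once around the removed
disc, plus the height), the right piece onto the centre circle by its height.
-/

open Set Topology
open scoped unitInterval

noncomputable section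

namespace Vale.Agent.P255

lemma lamL_pos : 0 < lamL := by unfold lamL; linarith [rhoL_pos]

lemma wL_radius {r : ℝ} (h1 : -3 < r) (h2 : r ≤ -1) :
    wL r / (2 * Real.pi) = rhoL + (-1 - r) := by
  rw [wL_flat ⟨h1, by linarith⟩ (by linarith), rhoL]
  field_simp

lemma wR_radius {r : ℝ} (h1 : 3 ≤ r) (h2 : r < 4) :
    wR r / (2 * Real.pi) = rhoR + (r - 3) := by
  rw [wR_flat ⟨by linarith, h2⟩ (by linarith), rhoR,
    wR_flat (r := 3) ⟨by norm_num, by norm_num⟩ (by norm_num)]
  field_simp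
  ring

lemma vec_apply3 (a b c : ℝ) : vec a b c 0 = a ∧ vec a b c 1 = b ∧ vec a b c 2 = c :=
  ⟨rfl, rfl, rfl⟩

lemma add_perC (y : E3) (i j : ℤ) :
    (y + perC i j) 0 = y 0 ∧ (y + perC i j) 1 = y 1 + i ∧ (y + perC i j) 2 = y 2 + j := by
  simp [perC, vec]

lemma add_perCore (lam : ℝ) (y : E3) (i j k : ℤ) :
    (y + perCore lam i j k) 0 = y 0 + lam * i ∧ (y + perCore lam i j k) 1 = y 1 + lam * j ∧
      (y + perCore lam i j k) 2 = y 2 + k := by
  simp [perCore, vec]

/-- relative radius of the left disc -/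
def dL : ℝ := rhoL / lamL

lemma dL_pos : 0 < dL := div_pos rhoL_pos lamL_pos

lemma dL_le : dL ≤ 1 / 4 := by
  rw [dL, div_le_iff₀ lamL_pos, lamL]; linarith

/-- relative radius at the coordinate `r` of the cylinder -/
def radL (r : ℝ) : ℝ := (rhoL + (-1 - r)) / lamL

/-- the central coordinate on the cylinder -/
def GC (y : E3) : ℝ :=
  (1 - ramp (y 0 + 1)) * turnLift dL (clampR dL (radL (y 0))) (y 1 - y 2)
    + ramp (y 0 + 1) * (y 1 - y 2) + y 2

/-- the map on the cylinder -/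
def FC (y : E3) : Nil := centre (GC y)

/-- the map on the left core -/
def FL (y : E3) : Nil :=
  toNil (flatStep (y 0 / lamL), flatStep (y 1 / lamL),
    (⌊y 0 / lamL⌋ : ℝ) * st dL (y 1 / lamL)
      - flatStep (y 0 / lamL) * (st dL (y 1 / lamL) - flatStep (y 1 / lamL)) + y 2)

/-- the map on the right core -/
def FR (y : E3) : Nil := centre (y 2)

lemma continuous_GC : Continuous GC := by
  have h0 : Continuous fun y : E3 => ramp (y 0 + 1) := continuous_ramp.comp (by fun_prop)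
  have h1 : Continuous fun y : E3 => turnLift dL (clampR dL (radL (y 0))) (y 1 - y 2) :=
    continuous_turnLift dL_pos dL_le (by unfold radL; fun_prop) (by fun_prop)
  unfold GC
  fun_prop

lemma continuousAt_FL {y : E3} (hy : y ∈ domL) : ContinuousAt FL y := by
  have hl := lamL_pos
  have cg := continuous_flatStep
  have cs := continuous_st dL_pos (dL_le.trans (by norm_num))
  have cX : Continuous fun z : E3 => z 0 / lamL := by fun_prop
  have cY : Continuous fun z : E3 => z 1 / lamL := by fun_prop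
  by_cases hX : (⌊y 0 / lamL⌋ : ℝ) = y 0 / lamL
  · set i := ⌊y 0 / lamL⌋ with hi
    set k := ⌊y 1 / lamL⌋ with hk
    have hgap : ∀ j : ℤ, dL < |y 1 / lamL - j| := by
      intro j
      have h := hy i j
      have e0 : y 0 - lamL * i = 0 := by rw [hX]; field_simp; ring
      have h1 : |rhoL| < |y 1 - lamL * j| := sq_lt_sq.1 (by rw [e0] at h; simpa using h)
      rw [abs_of_pos rhoL_pos] at h1
      rw [dL, show y 1 / lamL - j = (y 1 - lamL * j) / lamL by field_simp, abs_div,
        abs_of_pos hl, div_lt_div_iff_of_pos_right hl]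
      exact h1
    have h1 : (k : ℝ) + dL < y 1 / lamL := by
      have := hgap k
      rw [abs_of_nonneg (sub_nonneg.2 (Int.floor_le _))] at this
      linarith
    have h2 : y 1 / lamL < (k : ℝ) + 1 - dL := by
      have := hgap (k + 1)
      push_cast at this
      rw [abs_of_neg (by linarith [Int.lt_floor_add_one (y 1 / lamL)])] at this
      linarith
    have hev : (fun z : E3 => toNil (flatStep (z 0 / lamL), flatStep (z 1 / lamL),
        -flatStep (z 0 / lamL) * ((k : ℝ) + 1 - flatStep (z 1 / lamL)) + z 2)) =ᶠ[𝓝 y] FL := by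
      filter_upwards [cY.continuousAt.preimage_mem_nhds (Ioo_mem_nhds h1 h2)] with z hz
      rw [FL, st_between dL_pos k hz.1.le hz.2.le,
        ← toNil_add_int (flatStep (z 0 / lamL)) (flatStep (z 1 / lamL))
          (-flatStep (z 0 / lamL) * ((k : ℝ) + 1 - flatStep (z 1 / lamL)) + z 2)
          (⌊z 0 / lamL⌋ * (k + 1))]
      congr 3
      push_cast
      ring
    refine ContinuousAt.congr ?_ hev
    exact (continuous_toNil.comp (by fun_prop)).continuousAt
  · set i := ⌊y 0 / lamL⌋ with hi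
    have h1 : (i : ℝ) < y 0 / lamL := lt_of_le_of_ne (Int.floor_le _) hX
    have h2 : y 0 / lamL < (i : ℝ) + 1 := Int.lt_floor_add_one _
    have hev : (fun z : E3 => toNil (flatStep (z 0 / lamL), flatStep (z 1 / lamL),
        (i : ℝ) * st dL (z 1 / lamL)
          - flatStep (z 0 / lamL) * (st dL (z 1 / lamL) - flatStep (z 1 / lamL)) + z 2))
        =ᶠ[𝓝 y] FL := by
      filter_upwards [cX.continuousAt.preimage_mem_nhds (Ioo_mem_nhds h1 h2)] with z hz
      rw [FL, show ⌊z 0 / lamL⌋ = i from Int.floor_eq_iff.2 ⟨hz.1.le, hz.2⟩]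
    refine ContinuousAt.congr ?_ hev
    exact (continuous_toNil.comp (by fun_prop)).continuousAt

lemma FC_per (y : E3) (i j : ℤ) : FC (y + perC i j) = FC y := by
  obtain ⟨e0, e1, e2⟩ := add_perC y i j
  simp only [FC, GC, e0, e1, e2]
  rw [show y 1 + (i : ℝ) - (y 2 + j) = y 1 - y 2 + ((i - j : ℤ) : ℝ) by push_cast; ring,
    turnLift_add_int, ← centre_add_int ((1 - ramp (y 0 + 1)) *
      turnLift dL (clampR dL (radL (y 0))) (y 1 - y 2) + ramp (y 0 + 1) * (y 1 - y 2) + y 2) i]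
  congr 1
  push_cast
  ring

lemma FL_per (y : E3) (i j k : ℤ) : FL (y + perCore lamL i j k) = FL y := by
  obtain ⟨e0, e1, e2⟩ := add_perCore lamL y i j k
  have hl := lamL_pos.ne'
  simp only [FL, e0, e1, e2]
  rw [show (y 0 + lamL * i) / lamL = y 0 / lamL + i by field_simp,
    show (y 1 + lamL * j) / lamL = y 1 / lamL + j by field_simp]
  set g := flatStep (y 0 / lamL)
  set h := flatStep (y 1 / lamL)
  set s := st dL (y 1 / lamL)
  rw [← toNil_smul ⟨i, j, ⌊y 0 / lamL⌋ * j + i * j + k⟩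
    (g, h, (⌊y 0 / lamL⌋ : ℝ) * s - g * (s - h) + y 2), Hei.smul_def]
  simp only [flatStep_add_int, st_add_int, Int.floor_add_intCast]
  congr 3
  push_cast
  ring

lemma FR_per (y : E3) (i j k : ℤ) : FR (y + perCore lamR i j k) = FR y := by
  simp only [FR, (add_perCore lamR y i j k).2.2, centre_add_int]

lemma FC_toL {y : E3} (h1 : -3 < y 0) (h2 : y 0 < -1) : FL (toL y) = FC y := by
  have hl := lamL_pos
  set R := radL (y 0) with hR
  have hR1 : dL ≤ R := div_le_div_of_nonneg_right (by linarith) hl.le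
  have hR2 : R ≤ 1 / 4 := by
    rw [hR, radL, div_le_iff₀ hl, lamL]; linarith
  have hR0 : 0 ≤ R := dL_pos.le.trans hR1
  have e0 : toL y 0 / lamL = R * Real.cos (2 * Real.pi * (y 1 - y 2)) := by
    rw [toL, (vec_apply3 _ _ _).1, wL_radius h1 h2.le, hR, radL]; ring
  have e1 : toL y 1 / lamL = R * Real.sin (2 * Real.pi * (y 1 - y 2)) := by
    rw [toL, (vec_apply3 _ _ _).2.1, wL_radius h1 h2.le, hR, radL]; ring
  have e2 : toL y 2 = y 2 := rfl
  have hz : ∀ c : ℝ, -1 ≤ c → c ≤ 1 → flatStep (R * c) = 0 := fun c hc hc' =>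
    flatStep_eq_zero (by nlinarith) (by nlinarith)
  obtain ⟨n, hn⟩ := turnLift_circle dL_pos hR1 hR2 (y 1 - y 2)
  simp only [FL, FC, GC, e0, e1, e2, hz _ (Real.neg_one_le_cos _) (Real.cos_le_one _),
    hz _ (Real.neg_one_le_sin _) (Real.sin_le_one _), hn, ramp_eq_zero (by linarith : y 0 + 1 ≤ 0),
    clampR, min_eq_right hR2, max_eq_right hR1, ← hR]
  rw [← centre_add_int ((1 - 0) * turnLift dL R (y 1 - y 2) + 0 * (y 1 - y 2) + y 2) n]
  simp only [centre]
  congr 3
  ring

lemma FC_toR {y : E3} (h : 3 < y 0) : FR (toR y) = FC y := by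
  simp only [FR, FC, GC, ramp_eq_one (by linarith : 1 ≤ y 0 + 1)]
  rw [toR, (vec_apply3 _ _ _).2.2]
  congr 1
  ring

open Classical in
/-- the map -/
def nilMap (S : ModelSpec) (x : S.M) : Nil :=
  if hC : x ∈ S.eC '' domC then FC hC.choose
  else if hL : x ∈ S.eL '' domL then FL hL.choose
  else if hR : x ∈ S.eR '' domR then FR hR.choose
  else centre 0

lemma nilMap_C (S : ModelSpec) {y : E3} (hy : y ∈ domC) : nilMap S (S.eC y) = FC y := by
  have h : S.eC y ∈ S.eC '' domC := ⟨y, hy, rfl⟩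
  rw [nilMap, dif_pos h]
  obtain ⟨i, j, e⟩ := (S.eqC _ h.choose_spec.1 _ hy).1 h.choose_spec.2
  conv_rhs => rw [e, FC_per]

lemma nilMap_L (S : ModelSpec) {z : E3} (hz : z ∈ domL) : nilMap S (S.eL z) = FL z := by
  by_cases h : S.eL z ∈ S.eC '' domC
  · rw [nilMap, dif_pos h]
    obtain ⟨hr, i, j, k, e⟩ := (S.eqCL _ h.choose_spec.1 _ hz).1 h.choose_spec.2
    conv_rhs => rw [e, FL_per, FC_toL h.choose_spec.1.1 hr]
  · have h' : S.eL z ∈ S.eL '' domL := ⟨z, hz, rfl⟩
    rw [nilMap, dif_neg h, dif_pos h']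
    obtain ⟨i, j, k, e⟩ := (S.eqL _ h'.choose_spec.1 _ hz).1 h'.choose_spec.2
    conv_rhs => rw [e, FL_per]

lemma nilMap_R (S : ModelSpec) {z : E3} (hz : z ∈ domR) : nilMap S (S.eR z) = FR z := by
  by_cases h : S.eR z ∈ S.eC '' domC
  · rw [nilMap, dif_pos h]
    obtain ⟨hr, i, j, k, e⟩ := (S.eqCR _ h.choose_spec.1 _ hz).1 h.choose_spec.2
    conv_rhs => rw [e, FR_per, FC_toR hr]
  · have h' : S.eR z ∈ S.eR '' domR := ⟨z, hz, rfl⟩
    have h'' : S.eR z ∉ S.eL '' domL := by
      rintro ⟨w, hw, e⟩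
      exact S.eqLR w hw z hz e
    rw [nilMap, dif_neg h, dif_neg h'', dif_pos h']
    obtain ⟨i, j, k, e⟩ := (S.eqR _ h'.choose_spec.1 _ hz).1 h'.choose_spec.2
    conv_rhs => rw [e, FR_per]

private lemma isOpen_domC : IsOpen domC := isOpen_Ioo.preimage (by fun_prop)

theorem continuous_nilMap (S : ModelSpec) : Continuous (nilMap S) := by
  rw [continuous_def]
  intro U hU
  have e : nilMap S ⁻¹' U = S.eC '' (domC ∩ FC ⁻¹' U) ∪ S.eL '' (domL ∩ FL ⁻¹' U)
      ∪ S.eR '' (domR ∩ FR ⁻¹' U) := by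
    ext x
    constructor
    · intro hx
      rcases S.cover x with ⟨y, hy, rfl⟩ | ⟨y, hy, rfl⟩ | ⟨y, hy, rfl⟩
      · exact Or.inl (Or.inl ⟨y, ⟨hy, by rwa [mem_preimage, ← nilMap_C S hy]⟩, rfl⟩)
      · exact Or.inl (Or.inr ⟨y, ⟨hy, by rwa [mem_preimage, ← nilMap_L S hy]⟩, rfl⟩)
      · exact Or.inr ⟨y, ⟨hy, by rwa [mem_preimage, ← nilMap_R S hy]⟩, rfl⟩
    · rintro ((⟨y, ⟨hy, hU⟩, rfl⟩ | ⟨y, ⟨hy, hU⟩, rfl⟩) | ⟨y, ⟨hy, hU⟩, rfl⟩)
      · rwa [mem_preimage, nilMap_C S hy]
      · rwa [mem_preimage, nilMap_L S hy]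
      · rwa [mem_preimage, nilMap_R S hy]
  rw [e]
  have hC : IsOpen (domC ∩ FC ⁻¹' U) :=
    isOpen_domC.inter (hU.preimage (continuous_centre.comp continuous_GC))
  have hL : IsOpen (domL ∩ FL ⁻¹' U) :=
    ContinuousOn.isOpen_inter_preimage (fun y hy => (continuousAt_FL hy).continuousWithinAt)
      (isOpen_domCore _ _ lamL_pos) hU
  have hR : IsOpen (domR ∩ FR ⁻¹' U) :=
    (isOpen_domCore _ _ (by unfold lamR; linarith [rhoR_pos])).inter
      (hU.preimage (continuous_centre.comp (by fun_prop)))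
  exact ((S.openC _ hC inter_subset_left).union (S.openL _ hL inter_subset_left)).union
    (S.openR _ hR inter_subset_left)

/-- the loop `v ↦ (0, v, 0)` is essential -/
theorem vLoop_essential (S : ModelSpec) {x₀ : S.M} (P : Path x₀ x₀)
    (hP : ∀ t : I, P t = S.eC (vec 0 (t : ℝ) 0)) : ¬ P.Homotopic (Path.refl x₀) := by
  intro h
  have hdom : ∀ t : ℝ, vec 0 t 0 ∈ domC := fun t => by
    simp [domC, (vec_apply3 0 t 0).1]
  have hv : ∀ t : I, nilMap S (P t) = centre (t : ℝ) := fun t => by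
    rw [hP, nilMap_C S (hdom _)]
    simp only [FC, GC, (vec_apply3 0 (t : ℝ) 0).1, (vec_apply3 0 (t : ℝ) 0).2.1,
      (vec_apply3 0 (t : ℝ) 0).2.2, zero_add, ramp_eq_one le_rfl]
    congr 1
    ring
  have h0 : centre 0 = nilMap S x₀ := by
    rw [← P.source]; exact (hv 0).symm
  refine centre_loop_essential ((P.map (continuous_nilMap S)).cast h0 h0) (fun t => hv t) ?_
  have h2 := (h.map ⟨nilMap S, continuous_nilMap S⟩).pathCast h0 h0
  have e : ((Path.refl x₀).map (continuous_nilMap S)).cast h0 h0 = Path.refl (centre 0) := by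
    ext t
    simp [h0]
  rw [← e]
  exact h2

end Vale.Agent.P255
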